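import Vale.Agent.P295.Defs
import Vale.Agent.P295.EveryN
import Vale.Agent.P295.U165.Defs
import Vale.Agent.P295.H567.Main

/-!
P295 (the stable coordinate conjecture).

(1) Q1: for every `n ≥ 5` there is a 1-stable coordinate of `ℂ[x_1..x_n]` which is not a
coordinate.

(2) Systems of `m ≥ 1` polynomials in `n ≥ m + 4` variables with rational coefficients: over every
commutative `ℚ`-algebra `R` (for instance `ℂ`) they are part of a coordinate system after adding
one new variable; for every change of generators `φ` of `R[f_1..f_m]` every proper subsystem of the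
new generators is part of a coordinate system of `R[x_1..x_n]` itself; all the fibres times the line
are affine spaces; but if `R ≠ 0` the full system is not part of a coordinate system, and no fibre
is an affine space.
-/

open MvPolynomial Vale.Agent.P295

namespace Vale.Agent.Results.P295.PartialSystems

universe u

theorem result :
    (∀ n : ℕ, 5 ≤ n → ∃ f : MvPolynomial (Fin n) ℂ,
      IsStableCoordinateOfOrder 1 f ∧ IsStableCoordinate f ∧ ¬ IsCoordinate f) ∧
    ∀ m n : ℕ, 1 ≤ m → m + 4 ≤ n →
      ∃ f : Fin m → MvPolynomial (Fin n) ℚ, ∀ (R : Type u) [CommRing R] [Algebra ℚ R],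
        IsPartOfSystem (fun i =>
          (rename (Fin.castAdd 1) (extend R (f i)) : MvPolynomial (Fin (n + 1)) R)) ∧
        (∀ (φ : MvPolynomial (Fin m) R ≃ₐ[R] MvPolynomial (Fin m) R) (S : Set (Fin m)),
          S ≠ Set.univ →
            IsPartOfSystem fun i : S => aeval (fun j => extend R (f j)) (φ (X i.1))) ∧
        SystemFibresTimesLineTrivial (fun i => extend R (f i)) ∧
        (Nontrivial R → (¬ IsPartOfSystem fun i => extend R (f i)) ∧
          ¬ HasTrivialSystemFibre fun i => extend R (f i)) := by
  refine ⟨fun n hn => ?_, fun m n hm hn => Vale.Agent.P295.H567.systems m n hm hn⟩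
  obtain ⟨f, hf, hf'⟩ := Vale.Agent.P295.Full.every_n n hn
  exact ⟨f, hf, ⟨1, le_refl 1, hf⟩, hf'⟩

end Vale.Agent.Results.P295.PartialSystems
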