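import Vale.Agent.P295.Defs
import Vale.Agent.P295.U165.Defs
import Vale.Agent.P295.H311.Sta
import Vale.Agent.P295.H311.Main

/-!
P295 (the stable coordinate conjecture): one polynomial `f` in `n ≥ 5` variables with rational
coefficients such that

(1) over `ℂ` it is a 1-stable coordinate and not a coordinate (the question);

(2) over every field of characteristic zero the map `f : A^n → A^1` is equivariant for an algebraic
action on `A^n` of the group of the affine transformations `z ↦ t z + c` of the line; no
transformation of this action except the identity is conjugate to an affine one, but after adding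
one variable the action and `f` become `x_0 ↦ t x_0 + c` and `x_0`; the polynomial ring is `S[f]`
for the ring of invariants `S`, which is not a polynomial ring.
-/

open MvPolynomial Vale.Agent.P295

namespace Vale.Agent.Results.P295.StableSemiinvariants

universe u

theorem result (n : ℕ) (hn : 5 ≤ n) : ∃ f : MvPolynomial (Fin n) ℚ,
    (IsStableCoordinateOfOrder 1 (extend ℂ f) ∧ IsStableCoordinate (extend ℂ f) ∧
      ¬ IsCoordinate (extend ℂ f)) ∧
    ∀ (k : Type u) [Field k] [CharZero k],
      ∃ ρ : kˣ → k → (MvPolynomial (Fin n) k ≃ₐ[k] MvPolynomial (Fin n) k),
        IsActionOfAffineGroup ρ ∧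
        (∀ t c, ρ t c (extend k f) = C (t : k) * extend k f + C c) ∧
        (∀ t c, (t, c) ≠ (1, 0) → ¬ IsConjugateToAffine (ρ t c)) ∧
        IsStablyStandard ρ (extend k f) ∧ HasExoticInvariants ρ (extend k f) :=
  Vale.Agent.P295.H311.universal n hn

end Vale.Agent.Results.P295.StableSemiinvariants
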