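import Vale.Agent.P295.Defs
import Vale.Agent.P295.U165.Defs
import Vale.Agent.P295.U165.Univ

/-!
P295 (the stable coordinate conjecture): one polynomial `f` in `n ≥ 5` variables with rational
coefficients which is a 1-stable coordinate and not a coordinate over `ℂ` (the question), over
every field of characteristic zero and over every nonzero commutative `ℚ`-algebra `R`; no fibre
`f = c`, `c ∈ R`, is the affine space, but every fibre times the line is.
-/

open MvPolynomial Vale.Agent.P295

namespace Vale.Agent.Results.P295.UniversalRational

universe u

theorem result (n : ℕ) (hn : 5 ≤ n) : ∃ f : MvPolynomial (Fin n) ℚ,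
    (IsStableCoordinateOfOrder 1 (extend ℂ f) ∧ IsStableCoordinate (extend ℂ f) ∧
      ¬ IsCoordinate (extend ℂ f)) ∧
    ∀ (R : Type u) [CommRing R] [Algebra ℚ R],
      IsStableCoordinateOver 1 (extend R f) ∧ FibresTimesLineTrivial (extend R f) ∧
      (Nontrivial R → ¬ IsCoordinateOver (extend R f) ∧ ¬ HasTrivialFibre (extend R f)) :=
  Vale.Agent.P295.U165.universal n hn

end Vale.Agent.Results.P295.UniversalRational
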